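import Mathlib

/-!
# P036: Heilbronn's triangle problem, definitions
-/

set_option autoImplicit false

namespace Vale.Agent.P036

/-- area of the triangle `pqr` -/
noncomputable def area (p q r : ℝ × ℝ) : ℝ :=
  |(q.1 - p.1) * (r.2 - p.2) - (q.2 - p.2) * (r.1 - p.1)| / 2

/-- the smallest area of a triangle with three distinct vertices in `P` -/
noncomputable def Delta (P : Finset (ℝ × ℝ)) : ℝ :=
  sInf {a | ∃ p ∈ P, ∃ q ∈ P, ∃ r ∈ P, p ≠ q ∧ p ≠ r ∧ q ≠ r ∧ a = area p q r}

end Vale.Agent.P036
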