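import Vale.Agent.P036.Defs

/-!
# P036: points on few convex curves

If `n` points of the unit square are covered by the boundaries of `k` convex sets, then some
triangle has area at most `8192 (k/n)³`.  Proof: one of the `k` curves contains `n/(4k)` points whose
supporting lines have slopes in `[-1,1]` (after a symmetry of the square).  These points are strictly ordered
by the first coordinate, the slopes of the supporting lines decrease, and the triangle of three consecutive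
points has area at most `Δx² Δs / 8`.  By the pigeonhole principle some triple has `Δx ≤ 4/N`,
`Δs ≤ 8/N`.
-/

set_option autoImplicit false

namespace Vale.Agent.P036

open Set

theorem area_nonneg (p q r : ℝ × ℝ) : 0 ≤ area p q r := by unfold area; positivity

theorem Delta_le {P : Finset (ℝ × ℝ)} {p q r : ℝ × ℝ} (hp : p ∈ P) (hq : q ∈ P) (hr : r ∈ P)
    (h1 : p ≠ q) (h2 : p ≠ r) (h3 : q ≠ r) : Delta P ≤ area p q r := by
  refine csInf_le ⟨0, ?_⟩ ⟨p, hp, q, hq, r, hr, h1, h2, h3, rfl⟩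
  rintro a ⟨p, _, q, _, r, _, _, _, _, rfl⟩
  exact area_nonneg p q r

/-- supporting lines -/
theorem support {K : Set (ℝ × ℝ)} (hK : Convex ℝ K) {p : ℝ × ℝ} (hp : p ∈ frontier K) :
    ∃ u : ℝ × ℝ, u ≠ 0 ∧ ∀ q ∈ closure K, u.1 * q.1 + u.2 * q.2 ≤ u.1 * p.1 + u.2 * p.2 := by
  have hcoord : ∀ f : (ℝ × ℝ) →L[ℝ] ℝ, ∀ q : ℝ × ℝ, f q = f (1, 0) * q.1 + f (0, 1) * q.2 := by
    intro f q
    have e : q = q.1 • ((1 : ℝ), (0 : ℝ)) + q.2 • ((0 : ℝ), (1 : ℝ)) := by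
      ext <;> simp
    conv_lhs => rw [e]
    rw [map_add, map_smul, map_smul, smul_eq_mul, smul_eq_mul]
    ring
  suffices h : ∃ f : (ℝ × ℝ) →L[ℝ] ℝ, f ≠ 0 ∧ ∀ q ∈ closure K, f q ≤ f p by
    obtain ⟨f, hf, h⟩ := h
    refine ⟨(f (1, 0), f (0, 1)), fun h0 => hf ?_, fun q hq => ?_⟩
    · ext
      · have := congrArg Prod.fst h0
        simpa using this
      · have := congrArg Prod.snd h0
        simpa using this
    · have := h q hq
      rw [hcoord f q, hcoord f p] at this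
      exact this
  by_cases hint : (interior K).Nonempty
  · have hpi : p ∉ interior K := hp.2
    obtain ⟨f, hf⟩ := geometric_hahn_banach_open_point hK.interior isOpen_interior hpi
    refine ⟨f, ?_, ?_⟩
    · rintro rfl
      obtain ⟨a, ha⟩ := hint
      have := hf a ha
      simp at this
    · intro q hq
      rw [← hK.closure_interior_eq_closure_of_nonempty_interior hint] at hq
      have hcl : IsClosed {x : ℝ × ℝ | f x ≤ f p} := isClosed_le f.continuous continuous_const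
      have hsub : interior K ⊆ {x : ℝ × ℝ | f x ≤ f p} := fun a ha => (hf a ha).le
      exact closure_minimal hsub hcl hq
  · have hne : K.Nonempty := by
      rcases K.eq_empty_or_nonempty with h | h
      · rw [h, frontier_empty] at hp
        exact absurd hp (Set.notMem_empty _)
      · exact h
    have hspan : affineSpan ℝ K ≠ ⊤ := fun h =>
      hint ((hK.interior_nonempty_iff_affineSpan_eq_top).2 h)
    have hdir : (affineSpan ℝ K).direction ≠ ⊤ := by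
      intro h
      apply hspan
      have hne' : (affineSpan ℝ K : Set (ℝ × ℝ)).Nonempty := hne.mono (subset_affineSpan ℝ K)
      exact (AffineSubspace.direction_eq_top_iff_of_nonempty hne').1 h
    obtain ⟨f, hf, hle⟩ := Submodule.exists_le_ker_of_lt_top _ (lt_top_iff_ne_top.2 hdir)
    refine ⟨LinearMap.toContinuousLinearMap f, ?_, ?_⟩
    · intro h
      apply hf
      have := congrArg (fun g : (ℝ × ℝ) →L[ℝ] ℝ => (g : (ℝ × ℝ) →ₗ[ℝ] ℝ)) h
      simpa using this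
    · have hconst : ∀ a ∈ K, ∀ b ∈ K, f a = f b := by
        intro a ha b hb
        have h1 : a - b ∈ (affineSpan ℝ K).direction :=
          AffineSubspace.vsub_mem_direction (subset_affineSpan ℝ K ha) (subset_affineSpan ℝ K hb)
        have h2 := hle h1
        rw [LinearMap.mem_ker, map_sub, sub_eq_zero] at h2
        exact h2
      obtain ⟨b, hb⟩ := hne
      have hcl : IsClosed {x : ℝ × ℝ | LinearMap.toContinuousLinearMap f x = f b} :=
        isClosed_eq (LinearMap.toContinuousLinearMap f).continuous continuous_const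
      have hsub : K ⊆ {x : ℝ × ℝ | LinearMap.toContinuousLinearMap f x = f b} :=
        fun a ha => hconst a ha b hb
      intro q hq
      have h1 : LinearMap.toContinuousLinearMap f q = f b := closure_minimal hsub hcl hq
      have h2 : LinearMap.toContinuousLinearMap f p = f b :=
        closure_minimal hsub hcl (frontier_subset_closure hp)
      rw [h1, h2]

theorem triple_bound {a1 a2 d1 d2 σ σ1 σ2 c : ℝ} (p1 : 0 < a1) (p2 : 0 < a2)
    (s1 : σ1 * a1 ≤ d1) (s1' : d1 ≤ σ * a1) (s2 : σ2 * a2 ≤ d2) (s2' : d2 ≤ σ1 * a2)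
    (m1 : σ2 ≤ σ) (_hc : 0 ≤ c) (h : (a1 + a2) / 2 + (σ - σ2) / 4 ≤ c) :
    |a1 * d2 - d1 * a2| / 2 ≤ 2 * c ^ 3 := by
  have q1 : a1 * (σ2 * a2) ≤ a1 * d2 := mul_le_mul_of_nonneg_left s2 p1.le
  have q2 : a1 * d2 ≤ a1 * (σ1 * a2) := mul_le_mul_of_nonneg_left s2' p1.le
  have q3 : σ1 * a1 * a2 ≤ d1 * a2 := mul_le_mul_of_nonneg_right s1 p2.le
  have q4 : d1 * a2 ≤ σ * a1 * a2 := mul_le_mul_of_nonneg_right s1' p2.le
  have q5 : 0 ≤ a1 * a2 * (σ - σ2) := mul_nonneg (mul_nonneg p1.le p2.le) (by linarith)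
  have h6 : |a1 * d2 - d1 * a2| ≤ a1 * a2 * (σ - σ2) := by
    rw [abs_le]
    constructor <;> linarith
  have h7 : a1 * a2 ≤ ((a1 + a2) / 2) ^ 2 := by nlinarith [sq_nonneg (a1 - a2)]
  have h8 : (a1 + a2) / 2 ≤ c := by linarith
  have h9 : σ - σ2 ≤ 4 * c := by linarith
  have h10 : ((a1 + a2) / 2) ^ 2 ≤ c ^ 2 := pow_le_pow_left₀ (by positivity) h8 2
  have h11 : a1 * a2 * (σ - σ2) ≤ c ^ 2 * (4 * c) :=
    mul_le_mul (h7.trans h10) h9 (by linarith) (by positivity)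
  calc |a1 * d2 - d1 * a2| / 2 ≤ c ^ 2 * (4 * c) / 2 := by linarith
    _ = 2 * c ^ 3 := by ring

theorem chain (F : Finset (ℝ × ℝ)) (s : ℝ × ℝ → ℝ) (x0 : ℝ)
    (hx : ∀ p ∈ F, x0 ≤ p.1 ∧ p.1 ≤ x0 + 1) (hs : ∀ p ∈ F, |s p| ≤ 1)
    (hsup : ∀ p ∈ F, ∀ q ∈ F, q.2 - s p * q.1 ≤ p.2 - s p * p.1) (hN : 3 ≤ F.card) :
    ∃ p ∈ F, ∃ q ∈ F, ∃ r ∈ F, p ≠ q ∧ p ≠ r ∧ q ≠ r ∧
      area p q r ≤ 16 / ((F.card : ℝ) - 2) ^ 3 := by
  classical
  have hinj : Set.InjOn Prod.fst (F : Set (ℝ × ℝ)) := by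
    intro p hp q hq h
    have h1 := hsup p hp q hq
    have h2 := hsup q hq p hp
    have h' : p.1 = q.1 := h
    rw [h'] at h1 h2
    have : p.2 = q.2 := by linarith
    exact Prod.ext h' this
  obtain ⟨N, hNd⟩ : ∃ N, N = F.card := ⟨_, rfl⟩
  have hcard : (F.image Prod.fst).card = N := by rw [Finset.card_image_of_injOn hinj, hNd]
  let e := (F.image Prod.fst).orderEmbOfFin hcard
  have hmem : ∀ i : Fin N, ∃ p ∈ F, p.1 = e i := by
    intro i
    have := (F.image Prod.fst).orderEmbOfFin_mem hcard i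
    rw [Finset.mem_image] at this
    exact this
  choose g hgF hge using hmem
  have hN' : 3 ≤ N := by omega
  let G : ℕ → ℝ × ℝ := fun j => if h : j < N then g ⟨j, h⟩ else (0, 0)
  have hG : ∀ j, j < N → G j ∈ F := by
    intro j hj
    have : G j = g ⟨j, hj⟩ := dif_pos hj
    rw [this]
    exact hgF _
  have hGlt : ∀ i j, i < j → j < N → (G i).1 < (G j).1 := by
    intro i j hij hj
    have h1 : G i = g ⟨i, hij.trans hj⟩ := dif_pos (hij.trans hj)
    have h2 : G j = g ⟨j, hj⟩ := dif_pos hj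
    rw [h1, h2, hge, hge]
    exact e.strictMono (by exact hij)
  -- slopes
  have hsl : ∀ i j, i < j → j < N → s (G j) * ((G j).1 - (G i).1) ≤ (G j).2 - (G i).2 ∧
      (G j).2 - (G i).2 ≤ s (G i) * ((G j).1 - (G i).1) := by
    intro i j hij hj
    have h1 := hsup _ (hG i (hij.trans hj)) _ (hG j hj)
    have h2 := hsup _ (hG j hj) _ (hG i (hij.trans hj))
    constructor <;> nlinarith
  have hmono : ∀ i j, i < j → j < N → s (G j) ≤ s (G i) := by
    intro i j hij hj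
    have h1 := hsl i j hij hj
    have h2 := hGlt i j hij hj
    have h3 : s (G j) * ((G j).1 - (G i).1) ≤ s (G i) * ((G j).1 - (G i).1) := h1.1.trans h1.2
    exact le_of_mul_le_mul_right h3 (by linarith)
  let Φ : ℕ → ℝ := fun j => ((G j).1 + (G (j + 1)).1) / 2 - (s (G j) + s (G (j + 1))) / 4
  have hsum : ∑ j ∈ Finset.range (N - 2), (Φ (j + 1) - Φ j) = Φ (N - 2) - Φ 0 :=
    Finset.sum_range_sub Φ (N - 2)
  have hb : Φ (N - 2) - Φ 0 ≤ 2 := by
    change ((G (N - 2)).1 + (G (N - 2 + 1)).1) / 2 - (s (G (N - 2)) + s (G (N - 2 + 1))) / 4 -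
      (((G 0).1 + (G (0 + 1)).1) / 2 - (s (G 0) + s (G (0 + 1))) / 4) ≤ 2
    have a1 := hx _ (hG (N - 2) (by omega))
    have a2 := hx _ (hG (N - 2 + 1) (by omega))
    have a3 := hx _ (hG 0 (by omega))
    have a4 := hx _ (hG (0 + 1) (by omega))
    have b1 := abs_le.1 (hs _ (hG (N - 2) (by omega)))
    have b2 := abs_le.1 (hs _ (hG (N - 2 + 1) (by omega)))
    have b3 := abs_le.1 (hs _ (hG 0 (by omega)))
    have b4 := abs_le.1 (hs _ (hG (0 + 1) (by omega)))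
    linarith [a1.1, a1.2, a2.1, a2.2, a3.1, a3.2, a4.1, a4.2, b1.1, b1.2, b2.1, b2.2, b3.1, b3.2,
      b4.1, b4.2]
  have hNr : (0 : ℝ) < ((N - 2 : ℕ) : ℝ) := by
    have : 0 < N - 2 := by omega
    exact_mod_cast this
  have hNc : ((N - 2 : ℕ) : ℝ) = (F.card : ℝ) - 2 := by
    rw [Nat.cast_sub (by omega), ← hNd]
    norm_num
  obtain ⟨j, hj, hjle⟩ : ∃ j ∈ Finset.range (N - 2), Φ (j + 1) - Φ j ≤ 2 / ((N - 2 : ℕ) : ℝ) := by
    by_contra hcon
    push Not at hcon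
    have h1 : ∑ _j ∈ Finset.range (N - 2), 2 / ((N - 2 : ℕ) : ℝ) <
        ∑ j ∈ Finset.range (N - 2), (Φ (j + 1) - Φ j) :=
      Finset.sum_lt_sum_of_nonempty ⟨0, Finset.mem_range.2 (by omega)⟩ hcon
    rw [Finset.sum_const, Finset.card_range, nsmul_eq_mul, mul_div_cancel₀ _ hNr.ne', hsum] at h1
    linarith
  rw [Finset.mem_range] at hj
  have l1 := hGlt j (j + 1) (by omega) (by omega)
  have l2 := hGlt (j + 1) (j + 2) (by omega) (by omega)
  have s1 := hsl j (j + 1) (by omega) (by omega)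
  have s2 := hsl (j + 1) (j + 2) (by omega) (by omega)
  have m1 := hmono j (j + 2) (by omega) (by omega)
  refine ⟨G j, hG _ (by omega), G (j + 1), hG _ (by omega), G (j + 2), hG _ (by omega), ?_, ?_, ?_,
    ?_⟩
  · intro h; rw [h] at l1; exact lt_irrefl _ l1
  · intro h; rw [h] at l1; exact lt_irrefl _ (l1.trans l2)
  · intro h; rw [h] at l2; exact lt_irrefl _ l2
  · rw [← hNc]
    set c : ℝ := 2 / ((N - 2 : ℕ) : ℝ) with hc
    have hc0 : 0 < c := by positivity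
    have hΦ : Φ (j + 1) - Φ j = ((G (j + 2)).1 - (G j).1) / 2 + (s (G j) - s (G (j + 2))) / 4 := by
      change ((G (j + 1)).1 + (G (j + 1 + 1)).1) / 2 - (s (G (j + 1)) + s (G (j + 1 + 1))) / 4 -
        (((G j).1 + (G (j + 1)).1) / 2 - (s (G j) + s (G (j + 1))) / 4) = _
      ring
    rw [hΦ] at hjle
    obtain ⟨a1, ha1⟩ : ∃ a, a = (G (j + 1)).1 - (G j).1 := ⟨_, rfl⟩
    obtain ⟨a2, ha2⟩ : ∃ a, a = (G (j + 2)).1 - (G (j + 1)).1 := ⟨_, rfl⟩
    obtain ⟨d1, hd1⟩ : ∃ a, a = (G (j + 1)).2 - (G j).2 := ⟨_, rfl⟩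
    obtain ⟨d2, hd2⟩ : ∃ a, a = (G (j + 2)).2 - (G (j + 1)).2 := ⟨_, rfl⟩
    obtain ⟨σ, hσ⟩ : ∃ a, a = s (G j) := ⟨_, rfl⟩
    obtain ⟨σ1, hσ1⟩ : ∃ a, a = s (G (j + 1)) := ⟨_, rfl⟩
    obtain ⟨σ2, hσ2⟩ : ∃ a, a = s (G (j + 2)) := ⟨_, rfl⟩
    rw [← ha1, ← hd1, ← hσ, ← hσ1] at s1
    rw [← ha2, ← hd2, ← hσ1, ← hσ2] at s2
    rw [← hσ, ← hσ2] at m1
    have e1 : (G (j + 2)).1 - (G j).1 = a1 + a2 := by rw [ha1, ha2]; ring
    rw [e1, ← hσ, ← hσ2] at hjle
    have p1 : 0 < a1 := by rw [ha1]; linarith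
    have p2 : 0 < a2 := by rw [ha2]; linarith
    have harea : area (G j) (G (j + 1)) (G (j + 2)) = |a1 * d2 - d1 * a2| / 2 := by
      unfold area
      congr 2
      rw [ha1, ha2, hd1, hd2]
      ring
    have h5 : 16 / ((N - 2 : ℕ) : ℝ) ^ 3 = 2 * c ^ 3 := by rw [hc, div_pow]; ring
    rw [harea, h5]
    exact triple_bound p1 p2 s1.1 s1.2 s2.1 s2.2 m1 hc0.le hjle

theorem sect (F : Finset (ℝ × ℝ)) (g : ℝ × ℝ → ℝ × ℝ) (hg : Function.Injective g)
    (harea : ∀ p q r, area (g p) (g q) (g r) = area p q r)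
    (hx : ∀ p ∈ F, 0 ≤ (g p).1 ∧ (g p).1 ≤ 1)
    (hsup : ∀ p ∈ F, ∃ v : ℝ × ℝ, |v.1| ≤ v.2 ∧ 0 < v.2 ∧
      ∀ q ∈ F, v.1 * (g q).1 + v.2 * (g q).2 ≤ v.1 * (g p).1 + v.2 * (g p).2)
    (hN : 3 ≤ F.card) :
    ∃ p ∈ F, ∃ q ∈ F, ∃ r ∈ F, p ≠ q ∧ p ≠ r ∧ q ≠ r ∧
      area p q r ≤ 16 / ((F.card : ℝ) - 2) ^ 3 := by
  classical
  have h1 : ∀ z : ℝ × ℝ, ∃ s : ℝ, z ∈ F.image g → |s| ≤ 1 ∧
      ∀ q ∈ F.image g, q.2 - s * q.1 ≤ z.2 - s * z.1 := by
    intro z
    by_cases hz : z ∈ F.image g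
    · obtain ⟨p, hp, rfl⟩ := Finset.mem_image.1 hz
      obtain ⟨v, hv1, hv2, hv3⟩ := hsup p hp
      refine ⟨-v.1 / v.2, fun _ => ⟨?_, ?_⟩⟩
      · rw [abs_div, abs_neg, abs_of_pos hv2, div_le_one hv2]
        exact hv1
      · intro w hw
        obtain ⟨q, hq, rfl⟩ := Finset.mem_image.1 hw
        have h := hv3 q hq
        have e : ∀ y : ℝ × ℝ, y.2 - -v.1 / v.2 * y.1 = (v.1 * y.1 + v.2 * y.2) / v.2 := by
          intro y
          field_simp
          ring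
        rw [e, e]
        exact div_le_div_of_nonneg_right h hv2.le
    · exact ⟨0, fun h => absurd h hz⟩
  choose s hs using h1
  have hcard : (F.image g).card = F.card := Finset.card_image_of_injective F hg
  obtain ⟨p, hp, q, hq, r, hr, a1, a2, a3, a4⟩ := chain (F.image g) s 0
    (by
      intro p hp
      obtain ⟨p', hp', rfl⟩ := Finset.mem_image.1 hp
      rw [zero_add]
      exact hx p' hp')
    (fun p hp => (hs p hp).1) (fun p hp q hq => (hs p hp).2 q hq) (by rw [hcard]; exact hN)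
  obtain ⟨p', hp', rfl⟩ := Finset.mem_image.1 hp
  obtain ⟨q', hq', rfl⟩ := Finset.mem_image.1 hq
  obtain ⟨r', hr', rfl⟩ := Finset.mem_image.1 hr
  rw [hcard, harea] at a4
  exact ⟨p', hp', q', hq', r', hr', fun h => a1 (by rw [h]), fun h => a2 (by rw [h]),
    fun h => a3 (by rw [h]), a4⟩

/-- the sector of a direction -/
noncomputable def sec (u : ℝ × ℝ) : Fin 4 :=
  if |u.1| ≤ u.2 then 0 else if |u.1| ≤ -u.2 then 1 else if |u.2| ≤ u.1 then 2 else 3

theorem pos_of {a b : ℝ} (h : |a| ≤ b) (h0 : ¬ (a = 0 ∧ b = 0)) : 0 < b := by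
  rcases (abs_nonneg a).trans h |>.eq_or_lt with hb | hb
  · exfalso
    rw [← hb] at h
    exact h0 ⟨abs_nonpos_iff.1 h, hb.symm⟩
  · exact hb

theorem sector (F : Finset (ℝ × ℝ)) (u : ℝ × ℝ → ℝ × ℝ) (m : Fin 4)
    (hm : ∀ p ∈ F, sec (u p) = m) (hu : ∀ p ∈ F, u p ≠ 0)
    (hF : ∀ p ∈ F, (0 ≤ p.1 ∧ p.1 ≤ 1) ∧ 0 ≤ p.2 ∧ p.2 ≤ 1)
    (hsup : ∀ p ∈ F, ∀ q ∈ F, (u p).1 * q.1 + (u p).2 * q.2 ≤ (u p).1 * p.1 + (u p).2 * p.2)
    (hN : 3 ≤ F.card) :
    ∃ p ∈ F, ∃ q ∈ F, ∃ r ∈ F, p ≠ q ∧ p ≠ r ∧ q ≠ r ∧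
      area p q r ≤ 16 / ((F.card : ℝ) - 2) ^ 3 := by
  have h00 : ∀ p ∈ F, ¬ ((u p).1 = 0 ∧ (u p).2 = 0) := fun p hp h =>
    hu p hp (Prod.ext h.1 h.2)
  by_cases h0 : m = 0
  · refine sect F id Function.injective_id (fun _ _ _ => rfl) (fun p hp => (hF p hp).1) ?_ hN
    intro p hp
    have h := hm p hp
    rw [h0] at h
    unfold sec at h
    have h1 : |(u p).1| ≤ (u p).2 := by
      by_contra hc
      rw [if_neg hc] at h
      split_ifs at h <;> simp at h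
    exact ⟨u p, h1, pos_of h1 (h00 p hp), fun q hq => hsup p hp q hq⟩
  by_cases h1 : m = 1
  · refine sect F (fun z => (z.1, -z.2)) ?_ ?_ (fun p hp => (hF p hp).1) ?_ hN
    · rintro ⟨a, b⟩ ⟨c, d⟩ h
      simp only [Prod.mk.injEq, neg_inj] at h
      exact Prod.ext h.1 h.2
    · intro p q r
      unfold area
      rw [← abs_neg]
      congr 2
      ring
    · intro p hp
      have h := hm p hp
      rw [h1] at h
      unfold sec at h
      have h2 : |(u p).1| ≤ -(u p).2 := by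
        by_contra hc
        rw [if_neg hc] at h
        split_ifs at h <;> simp at h
      refine ⟨((u p).1, -(u p).2), h2, pos_of h2 fun h3 => h00 p hp ⟨h3.1, by linarith [h3.2]⟩,
        fun q hq => ?_⟩
      have := hsup p hp q hq
      change (u p).1 * q.1 + -(u p).2 * -q.2 ≤ (u p).1 * p.1 + -(u p).2 * -p.2
      linarith
  by_cases h2 : m = 2
  · refine sect F (fun z => (z.2, z.1)) ?_ ?_ (fun p hp => (hF p hp).2) ?_ hN
    · rintro ⟨a, b⟩ ⟨c, d⟩ h
      simp only [Prod.mk.injEq] at h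
      exact Prod.ext h.2 h.1
    · intro p q r
      unfold area
      rw [← abs_neg]
      congr 2
      ring
    · intro p hp
      have h := hm p hp
      rw [h2] at h
      unfold sec at h
      have h2 : |(u p).2| ≤ (u p).1 := by
        by_contra hc
        rw [if_neg hc] at h
        split_ifs at h <;> simp at h
      refine ⟨((u p).2, (u p).1), h2, pos_of h2 fun h3 => h00 p hp ⟨h3.2, h3.1⟩,
        fun q hq => ?_⟩
      have := hsup p hp q hq
      change (u p).2 * q.2 + (u p).1 * q.1 ≤ (u p).2 * p.2 + (u p).1 * p.1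
      linarith
  · refine sect F (fun z => (z.2, -z.1)) ?_ ?_ (fun p hp => (hF p hp).2) ?_ hN
    · rintro ⟨a, b⟩ ⟨c, d⟩ h
      simp only [Prod.mk.injEq, neg_inj] at h
      exact Prod.ext h.2 h.1
    · intro p q r
      unfold area
      congr 2
      ring
    · intro p hp
      have h := hm p hp
      unfold sec at h
      have h3 : |(u p).2| ≤ -(u p).1 := by
        split_ifs at h with c1 c2 c3
        · exact absurd h.symm h0
        · exact absurd h.symm h1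
        · exact absurd h.symm h2
        · rw [not_le] at c1 c2 c3
          have e1 : |(u p).2| < |(u p).1| := abs_lt.2 ⟨by linarith, c1⟩
          have e2 : (u p).1 < 0 := by
            by_contra hc
            rw [abs_of_nonneg (not_lt.1 hc)] at e1
            linarith
          rw [abs_of_neg e2] at e1
          exact e1.le
      refine ⟨((u p).2, -(u p).1), h3, pos_of h3 fun h4 => h00 p hp ⟨by linarith [h4.2], h4.1⟩,
        fun q hq => ?_⟩
      have := hsup p hp q hq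
      change (u p).2 * q.2 + -(u p).1 * -q.1 ≤ (u p).2 * p.2 + -(u p).1 * -p.1
      linarith

theorem area_le_one {p q r : ℝ × ℝ} (hp : (0 ≤ p.1 ∧ p.1 ≤ 1) ∧ 0 ≤ p.2 ∧ p.2 ≤ 1)
    (hq : (0 ≤ q.1 ∧ q.1 ≤ 1) ∧ 0 ≤ q.2 ∧ q.2 ≤ 1)
    (hr : (0 ≤ r.1 ∧ r.1 ≤ 1) ∧ 0 ≤ r.2 ∧ r.2 ≤ 1) : area p q r ≤ 1 := by
  obtain ⟨⟨a1, a2⟩, a3, a4⟩ := hp
  obtain ⟨⟨b1, b2⟩, b3, b4⟩ := hq
  obtain ⟨⟨c1, c2⟩, c3, c4⟩ := hr
  have h1 : |(q.1 - p.1) * (r.2 - p.2)| ≤ 1 := by
    rw [abs_mul]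
    exact mul_le_one₀ (abs_le.2 ⟨by linarith, by linarith⟩) (abs_nonneg _)
      (abs_le.2 ⟨by linarith, by linarith⟩)
  have h2 : |(q.2 - p.2) * (r.1 - p.1)| ≤ 1 := by
    rw [abs_mul]
    exact mul_le_one₀ (abs_le.2 ⟨by linarith, by linarith⟩) (abs_nonneg _)
      (abs_le.2 ⟨by linarith, by linarith⟩)
  have h3 := abs_sub ((q.1 - p.1) * (r.2 - p.2)) ((q.2 - p.2) * (r.1 - p.1))
  unfold area
  linarith

theorem main (P : Finset (ℝ × ℝ)) (k : ℕ) (K : Fin k → Set (ℝ × ℝ)) (hP3 : 3 ≤ P.card)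
    (hP : ∀ p ∈ P, (0 ≤ p.1 ∧ p.1 ≤ 1) ∧ 0 ≤ p.2 ∧ p.2 ≤ 1) (hK : ∀ i, Convex ℝ (K i))
    (hcov : ∀ p ∈ P, ∃ i, p ∈ frontier (K i)) :
    Delta P ≤ 8192 * ((k : ℝ) / P.card) ^ 3 := by
  classical
  have hPne : P.Nonempty := by
    rw [← Finset.card_pos]; omega
  obtain ⟨p0, hp0⟩ := hPne
  have hk : 0 < k := by
    obtain ⟨i, _⟩ := hcov p0 hp0
    exact i.pos
  have hkr : (0 : ℝ) < k := by exact_mod_cast hk
  have hnr : (3 : ℝ) ≤ P.card := by exact_mod_cast hP3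
  have h1 : ∀ p : ℝ × ℝ, ∃ (i : Fin k) (u : ℝ × ℝ), p ∈ P → p ∈ frontier (K i) ∧ u ≠ 0 ∧
      ∀ q ∈ closure (K i), u.1 * q.1 + u.2 * q.2 ≤ u.1 * p.1 + u.2 * p.2 := by
    intro p
    by_cases hp : p ∈ P
    · obtain ⟨i, hi⟩ := hcov p hp
      obtain ⟨u, hu, h⟩ := support (hK i) hi
      exact ⟨i, u, fun _ => ⟨hi, hu, h⟩⟩
    · exact ⟨⟨0, hk⟩, 0, fun h => absurd h hp⟩
  choose I u hIu using h1
  obtain ⟨c, _, hc⟩ := Finset.exists_le_card_fiber_of_nsmul_le_card_of_maps_to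
    (s := P) (t := (Finset.univ : Finset (Fin k × Fin 4))) (f := fun p => (I p, sec (u p)))
    (b := (P.card : ℝ) / (4 * k)) (fun _ _ => Finset.mem_univ _) ⟨(⟨0, hk⟩, 0), Finset.mem_univ _⟩
    (by
      rw [Finset.card_univ, Fintype.card_prod, Fintype.card_fin, Fintype.card_fin, nsmul_eq_mul]
      push_cast
      apply le_of_eq
      field_simp)
  by_cases hρ : (P.card : ℝ) / (4 * k) < 4
  · -- few points per curve
    obtain ⟨a, b, d, ha, hb, hd, hab, had, hbd⟩ := (Finset.two_lt_card_iff).1 (by omega : 2 < P.card)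
    refine (Delta_le ha hb hd hab had hbd).trans
      ((area_le_one (hP a ha) (hP b hb) (hP d hd)).trans ?_)
    rw [div_lt_iff₀ (by positivity)] at hρ
    have h2 : 1 / 16 ≤ (k : ℝ) / P.card := by
      rw [div_le_div_iff₀ (by norm_num) (by linarith)]
      linarith
    have h3 : (1 / 16 : ℝ) ^ 3 ≤ ((k : ℝ) / P.card) ^ 3 := pow_le_pow_left₀ (by norm_num) h2 3
    norm_num at h3 ⊢
    linarith
  · rw [not_lt] at hρ
    set F := P.filter fun x => (I x, sec (u x)) = c with hF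
    have hFr : (4 : ℝ) ≤ F.card := hρ.trans hc
    have hF4 : 4 ≤ F.card := by exact_mod_cast hFr
    have hFP : ∀ p ∈ F, p ∈ P := fun p hp => (Finset.mem_filter.1 hp).1
    have hFc : ∀ p ∈ F, I p = c.1 ∧ sec (u p) = c.2 := fun p hp =>
      ⟨congrArg Prod.fst (Finset.mem_filter.1 hp).2, congrArg Prod.snd (Finset.mem_filter.1 hp).2⟩
    obtain ⟨p, hp, q, hq, r, hr, a1, a2, a3, a4⟩ := sector F u c.2 (fun p hp => (hFc p hp).2)
      (fun p hp => (hIu p (hFP p hp)).2.1) (fun p hp => hP p (hFP p hp)) (by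
        intro p hp q hq
        refine (hIu p (hFP p hp)).2.2 q ?_
        rw [(hFc p hp).1, ← (hFc q hq).1]
        exact frontier_subset_closure (hIu q (hFP q hq)).1) (by omega)
    refine (Delta_le (hFP p hp) (hFP q hq) (hFP r hr) a1 a2 a3).trans (a4.trans ?_)
    have h2 : (P.card : ℝ) / (8 * k) ≤ (F.card : ℝ) - 2 := by
      have e : (P.card : ℝ) / (8 * k) = (P.card : ℝ) / (4 * k) / 2 := by
        rw [div_div]; congr 1; ring
      rw [e]
      linarith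
    have h3 : 0 < (P.card : ℝ) / (8 * k) := by positivity
    calc 16 / ((F.card : ℝ) - 2) ^ 3 ≤ 16 / ((P.card : ℝ) / (8 * k)) ^ 3 :=
          div_le_div_of_nonneg_left (by norm_num) (by positivity) (pow_le_pow_left₀ h3.le h2 3)
      _ = 8192 * ((k : ℝ) / P.card) ^ 3 := by
          field_simp
          norm_num

end Vale.Agent.P036
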